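import Mathlib

namespace Vale.Agent.Lib.P040

open Finset

theorem arith_aux (p q : ℕ) :
    2 * (((p + q) / 2) * ((p + q - 1) / 2)) ≤ (p * p - p) + (q * q - q) := by
  have hp : p * p - p + p = p * p := Nat.sub_add_cancel (Nat.le_mul_self p)
  have hq : q * q - q + q = q * q := Nat.sub_add_cancel (Nat.le_mul_self q)
  generalize p * p - p = P' at *
  generalize q * q - q = Q' at *
  rcases Nat.even_or_odd' (p + q) with ⟨t, ht | ht⟩
  · have h1 : (p + q) / 2 = t := by omega
    have h2 : (p + q - 1) / 2 = t - 1 := by omega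
    rw [h1, h2]
    rcases Nat.eq_zero_or_pos t with h0 | h0
    · subst h0; simp
    · obtain ⟨s, rfl⟩ : ∃ s, t = s + 1 := ⟨t - 1, by omega⟩
      simp only [Nat.add_sub_cancel]
      zify at *
      nlinarith [sq_nonneg ((p : ℤ) - q)]
  · have h1 : (p + q) / 2 = t := by omega
    have h2 : (p + q - 1) / 2 = t := by omega
    rw [h1, h2]
    have hne : (p : ℤ) ≠ q := by
      intro h
      have : p = q := by exact_mod_cast h
      omega
    have hsq : (1 : ℤ) ≤ ((p : ℤ) - q) ^ 2 := by
      have h3 : (p : ℤ) - q ≠ 0 := sub_ne_zero.mpr hne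
      rcases lt_or_gt_of_ne h3 with h4 | h4
      · have : (p : ℤ) - q ≤ -1 := by omega
        nlinarith
      · have : (1 : ℤ) ≤ (p : ℤ) - q := by omega
        nlinarith
    zify at *
    nlinarith

/-- Among the pairs `i < k` of a two-coloured set of `m` points, at least
`⌊m/2⌋ * ⌊(m-1)/2⌋` are monochromatic. -/
theorem mono_pairs (m : ℕ) (c : Fin m → Bool) :
    (m / 2) * ((m - 1) / 2) ≤
      ((univ : Finset (Fin m × Fin m)).filter (fun p => p.1 < p.2 ∧ c p.1 = c p.2)).card := by
  classical
  set Flt := (univ : Finset (Fin m × Fin m)).filter (fun p => p.1 < p.2 ∧ c p.1 = c p.2)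
    with hFlt
  set Fgt := (univ : Finset (Fin m × Fin m)).filter (fun p => p.2 < p.1 ∧ c p.1 = c p.2)
    with hFgt
  set Pt := (univ : Finset (Fin m)).filter (fun i => c i = true) with hPt
  set Pf := (univ : Finset (Fin m)).filter (fun i => ¬ c i = true) with hPf
  have h1 : Fgt.card = Flt.card := by
    have : Fgt = Flt.image Prod.swap := by
      ext ⟨i, k⟩
      simp only [hFlt, hFgt, mem_filter, mem_univ, true_and, mem_image, Prod.exists,
        Prod.swap_prod_mk, Prod.mk.injEq]
      constructor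
      · rintro ⟨h, h'⟩
        exact ⟨k, i, ⟨h, h'.symm⟩, rfl, rfl⟩
      · rintro ⟨a, b', ⟨h, h'⟩, rfl, rfl⟩
        exact ⟨h, h'.symm⟩
    rw [this, Finset.card_image_of_injective _ Prod.swap_injective]
  have h2 : Flt ∪ Fgt = Pt.offDiag ∪ Pf.offDiag := by
    ext ⟨i, k⟩
    simp only [hFlt, hFgt, hPt, hPf, mem_union, mem_filter, mem_univ, true_and, mem_offDiag]
    constructor
    · rintro (⟨h, h'⟩ | ⟨h, h'⟩)
      · by_cases hc : c i = true
        · exact Or.inl ⟨hc, h' ▸ hc, h.ne⟩
        · exact Or.inr ⟨hc, h' ▸ hc, h.ne⟩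
      · by_cases hc : c i = true
        · exact Or.inl ⟨hc, h' ▸ hc, h.ne'⟩
        · exact Or.inr ⟨hc, h' ▸ hc, h.ne'⟩
    · rintro (⟨h, h', hne⟩ | ⟨h, h', hne⟩)
      · have hcc : c i = c k := by rw [h, h']
        rcases lt_or_gt_of_ne hne with h3 | h3
        · exact Or.inl ⟨h3, hcc⟩
        · exact Or.inr ⟨h3, hcc⟩
      · have hcc : c i = c k := by
          rw [Bool.not_eq_true] at h h'
          rw [h, h']
        rcases lt_or_gt_of_ne hne with h3 | h3
        · exact Or.inl ⟨h3, hcc⟩
        · exact Or.inr ⟨h3, hcc⟩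
  have h3 : Disjoint Flt Fgt := by
    rw [Finset.disjoint_left]
    rintro ⟨i, k⟩ ha hb
    simp only [hFlt, hFgt, mem_filter, mem_univ, true_and] at ha hb
    exact lt_asymm ha.1 hb.1
  have h4 : Disjoint Pt.offDiag Pf.offDiag := by
    rw [Finset.disjoint_left]
    rintro ⟨i, k⟩ ha hb
    simp only [hPt, hPf, mem_offDiag, mem_filter, mem_univ, true_and] at ha hb
    exact hb.1 ha.1
  have h5 : Pt.card + Pf.card = m := by
    have := Finset.card_filter_add_card_filter_not (s := (univ : Finset (Fin m)))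
      (fun i => c i = true)
    rw [Finset.card_univ, Fintype.card_fin] at this
    exact this
  have h6 : 2 * Flt.card = (Pt.card * Pt.card - Pt.card) + (Pf.card * Pf.card - Pf.card) := by
    rw [← Finset.offDiag_card, ← Finset.offDiag_card, ← Finset.card_union_of_disjoint h4, ← h2,
      Finset.card_union_of_disjoint h3, h1]
    ring
  have h7 := arith_aux Pt.card Pf.card
  rw [h5] at h7
  omega

end Vale.Agent.Lib.P040
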