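import Vale.Agent.Lib.P040.Geometry
import Vale.Agent.Lib.P040.Counting

namespace Vale.Agent.Lib.P040

open Finset

theorem cross_or (xi xk : ℝ) (u v : ℝ × ℝ) (hx : xi ≠ xk)
    (hq : 0 < u.2 * v.2) (ho : 0 < orient xi u v * orient xk u v) :
    (openSegment ℝ ((xi, 0) : ℝ × ℝ) u ∩ openSegment ℝ ((xk, 0) : ℝ × ℝ) v).Nonempty ∨
      (openSegment ℝ ((xi, 0) : ℝ × ℝ) v ∩ openSegment ℝ ((xk, 0) : ℝ × ℝ) u).Nonempty := by
  have ho' : 0 < orient xi v u * orient xk v u := by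
    rw [orient_swap xi u v, orient_swap xk u v]; linarith [neg_mul_neg (orient xi u v) (orient xk u v)]
  rcases lt_or_gt_of_ne hx with hlt | hlt
  · rcases pos_and_pos_or_neg_and_neg_of_mul_pos hq with ⟨h1, h2⟩ | ⟨h1, h2⟩
    · rcases pos_and_pos_or_neg_and_neg_of_mul_pos ho with ⟨h3, h4⟩ | ⟨h3, h4⟩
      · exact Or.inl (cross_aux xi xk u v hlt (Or.inl ⟨h1, h2, h3, h4⟩))
      · refine Or.inr (cross_aux xi xk v u hlt (Or.inl ⟨h2, h1, ?_, ?_⟩))
        · rw [orient_swap]; linarith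
        · rw [orient_swap]; linarith
    · rcases pos_and_pos_or_neg_and_neg_of_mul_pos ho with ⟨h3, h4⟩ | ⟨h3, h4⟩
      · refine Or.inr (cross_aux xi xk v u hlt (Or.inr ⟨h2, h1, ?_, ?_⟩))
        · rw [orient_swap]; linarith
        · rw [orient_swap]; linarith
      · exact Or.inl (cross_aux xi xk u v hlt (Or.inr ⟨h1, h2, h3, h4⟩))
  · rcases pos_and_pos_or_neg_and_neg_of_mul_pos hq with ⟨h1, h2⟩ | ⟨h1, h2⟩
    · rcases pos_and_pos_or_neg_and_neg_of_mul_pos ho with ⟨h3, h4⟩ | ⟨h3, h4⟩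
      · refine Or.inr ?_
        rw [Set.inter_comm]
        exact cross_aux xk xi u v hlt (Or.inl ⟨h1, h2, h4, h3⟩)
      · refine Or.inl ?_
        rw [Set.inter_comm]
        refine cross_aux xk xi v u hlt (Or.inl ⟨h2, h1, ?_, ?_⟩)
        · rw [orient_swap]; linarith
        · rw [orient_swap]; linarith
    · rcases pos_and_pos_or_neg_and_neg_of_mul_pos ho with ⟨h3, h4⟩ | ⟨h3, h4⟩
      · refine Or.inl ?_
        rw [Set.inter_comm]
        refine cross_aux xk xi v u hlt (Or.inr ⟨h2, h1, ?_, ?_⟩)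
        · rw [orient_swap]; linarith
        · rw [orient_swap]; linarith
      · refine Or.inr ?_
        rw [Set.inter_comm]
        exact cross_aux xk xi u v hlt (Or.inr ⟨h1, h2, h4, h3⟩)

theorem mul_pos_of_decide_eq {a c : ℝ} (ha : a ≠ 0) (hc : c ≠ 0)
    (h : decide (0 < a) = decide (0 < c)) : 0 < a * c := by
  have h' : (0 < a) ↔ (0 < c) := by simpa using h
  rcases lt_or_gt_of_ne ha with h1 | h1
  · have h2 : ¬ (0 < c) := fun hc' => (lt_asymm h1) (h'.mpr hc')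
    have h3 : c < 0 := lt_of_le_of_ne (not_lt.mp h2) hc
    exact mul_pos_of_neg_of_neg h1 h3
  · exact mul_pos h1 (h'.mp h1)

/-- If the orientation determinant vanishes, the three points are collinear. -/
theorem collinear_of_orient_eq_zero (x : ℝ) (u v : ℝ × ℝ) (hu : u.2 ≠ 0)
    (h : orient x u v = 0) : Collinear ℝ {((x, 0) : ℝ × ℝ), u, v} := by
  rw [collinear_iff_of_mem (p₀ := ((x, 0) : ℝ × ℝ)) (by simp)]
  refine ⟨(u.1 - x, u.2), ?_⟩
  intro p hp
  simp only [Set.mem_insert_iff, Set.mem_singleton_iff] at hp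
  rcases hp with rfl | rfl | rfl
  · exact ⟨0, by simp⟩
  · refine ⟨1, ?_⟩
    ext <;> simp
  · refine ⟨p.2 / u.2, ?_⟩
    unfold orient at h
    ext
    · simp only [vadd_eq_add, Prod.smul_mk, smul_eq_mul, Prod.mk_add_mk, add_zero]
      field_simp
      linarith
    · simp only [vadd_eq_add, Prod.smul_mk, smul_eq_mul, Prod.mk_add_mk, add_zero]
      field_simp

/-- Core counting statement: Zarankiewicz's bound for the number of crossing pairs of edges,
assuming that the orientation determinants of same-side pairs do not vanish. -/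
theorem collinear_core (m n : ℕ) (x : Fin m → ℝ) (b : Fin n → ℝ × ℝ)
    (hx : Function.Injective x) (hb : ∀ j, (b j).2 ≠ 0)
    (hor : ∀ i j l, j ≠ l → 0 < (b j).2 * (b l).2 → orient (x i) (b j) (b l) ≠ 0) :
    (m / 2) * ((m - 1) / 2) * ((n / 2) * ((n - 1) / 2)) ≤
      Set.ncard {q : (Fin m × Fin n) × (Fin m × Fin n) |
        q.1.1 < q.2.1 ∧ q.1.2 ≠ q.2.2 ∧
          (openSegment ℝ ((x q.1.1, 0) : ℝ × ℝ) (b q.1.2) ∩
            openSegment ℝ ((x q.2.1, 0) : ℝ × ℝ) (b q.2.2)).Nonempty} := by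
  classical
  set S : Set ((Fin m × Fin n) × (Fin m × Fin n)) := {q |
        q.1.1 < q.2.1 ∧ q.1.2 ≠ q.2.2 ∧
          (openSegment ℝ ((x q.1.1, 0) : ℝ × ℝ) (b q.1.2) ∩
            openSegment ℝ ((x q.2.1, 0) : ℝ × ℝ) (b q.2.2)).Nonempty} with hS
  -- colourings
  let sg : Fin n → Bool := fun j => decide (0 < (b j).2)
  let tu : Fin n × Fin n → Fin m → Bool := fun jl i =>
    decide (0 < orient (x i) (b jl.1) (b jl.2))
  let P : Finset (Fin n × Fin n) := univ.filter (fun jl => jl.1 < jl.2 ∧ sg jl.1 = sg jl.2)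
  let M : Fin n × Fin n → Finset (Fin m × Fin m) := fun jl =>
    univ.filter (fun ik => ik.1 < ik.2 ∧ tu jl ik.1 = tu jl ik.2)
  let T : Finset ((_ : Fin n × Fin n) × (Fin m × Fin m)) := P.sigma M
  have hT : (m / 2) * ((m - 1) / 2) * ((n / 2) * ((n - 1) / 2)) ≤ T.card := by
    rw [Finset.card_sigma]
    calc (m / 2) * ((m - 1) / 2) * ((n / 2) * ((n - 1) / 2))
        ≤ (m / 2) * ((m - 1) / 2) * P.card :=
          Nat.mul_le_mul_left _ (mono_pairs n sg)
      _ = ∑ _jl ∈ P, (m / 2) * ((m - 1) / 2) := by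
          rw [Finset.sum_const, smul_eq_mul, mul_comm]
      _ ≤ ∑ jl ∈ P, (M jl).card := Finset.sum_le_sum (fun jl _ => mono_pairs m (tu jl))
  -- the map to crossing pairs
  let cr : Fin m × Fin n → Fin m × Fin n → Prop := fun e f =>
    (openSegment ℝ ((x e.1, 0) : ℝ × ℝ) (b e.2) ∩
      openSegment ℝ ((x f.1, 0) : ℝ × ℝ) (b f.2)).Nonempty
  let Ψ : ((_ : Fin n × Fin n) × (Fin m × Fin m)) → (Fin m × Fin n) × (Fin m × Fin n) :=
    fun t => if cr (t.2.1, t.1.1) (t.2.2, t.1.2) then ((t.2.1, t.1.1), (t.2.2, t.1.2))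
      else ((t.2.1, t.1.2), (t.2.2, t.1.1))
  have hmem : ∀ t ∈ T, Ψ t ∈ S := by
    rintro ⟨⟨j, l⟩, ⟨i, k⟩⟩ ht
    simp only [T, P, M, Finset.mem_sigma, mem_filter, mem_univ, true_and] at ht
    obtain ⟨⟨hjl, hs⟩, hik, hτ⟩ := ht
    have hxik : x i ≠ x k := fun h => hik.ne (hx h)
    have hq : 0 < (b j).2 * (b l).2 := mul_pos_of_decide_eq (hb j) (hb l) hs
    have ho : 0 < orient (x i) (b j) (b l) * orient (x k) (b j) (b l) :=
      mul_pos_of_decide_eq (hor i j l hjl.ne hq) (hor k j l hjl.ne hq) hτ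
    have hcr := cross_or (x i) (x k) (b j) (b l) hxik hq ho
    by_cases hc : cr (i, j) (k, l)
    · have : Ψ ⟨(j, l), (i, k)⟩ = ((i, j), (k, l)) := if_pos hc
      rw [this]
      exact ⟨hik, hjl.ne, hc⟩
    · have : Ψ ⟨(j, l), (i, k)⟩ = ((i, l), (k, j)) := if_neg hc
      rw [this]
      refine ⟨hik, hjl.ne', ?_⟩
      rcases hcr with h | h
      · exact absurd h hc
      · exact h
  have hinj : Set.InjOn Ψ (T : Set ((_ : Fin n × Fin n) × (Fin m × Fin m))) := by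
    rintro ⟨⟨j, l⟩, ⟨i, k⟩⟩ ht ⟨⟨j', l'⟩, ⟨i', k'⟩⟩ ht' heq
    simp only [T, P, M, Finset.coe_sigma, Set.mem_sigma_iff, Finset.mem_coe, mem_filter,
      mem_univ, true_and] at ht ht'
    obtain ⟨⟨hjl, -⟩, -, -⟩ := ht
    obtain ⟨⟨hjl', -⟩, -, -⟩ := ht'
    have e1 : Ψ ⟨(j, l), (i, k)⟩ = ((i, j), (k, l)) ∨ Ψ ⟨(j, l), (i, k)⟩ = ((i, l), (k, j)) := by
      by_cases hc : cr (i, j) (k, l)
      · exact Or.inl (if_pos hc)
      · exact Or.inr (if_neg hc)
    have e2 : Ψ ⟨(j', l'), (i', k')⟩ = ((i', j'), (k', l')) ∨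
        Ψ ⟨(j', l'), (i', k')⟩ = ((i', l'), (k', j')) := by
      by_cases hc : cr (i', j') (k', l')
      · exact Or.inl (if_pos hc)
      · exact Or.inr (if_neg hc)
    rcases e1 with e1 | e1 <;> rcases e2 with e2 | e2 <;> rw [e1, e2] at heq <;>
      simp only [Prod.mk.injEq] at heq <;> obtain ⟨⟨h1, h2⟩, h3, h4⟩ := heq <;> subst h1 h3
    · subst h2 h4; rfl
    · subst h2 h4; exact absurd hjl (lt_asymm hjl')
    · subst h2 h4; exact absurd hjl (lt_asymm hjl')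
    · subst h2 h4; rfl
  calc (m / 2) * ((m - 1) / 2) * ((n / 2) * ((n - 1) / 2)) ≤ T.card := hT
    _ = (T : Set ((_ : Fin n × Fin n) × (Fin m × Fin m))).ncard := (Set.ncard_coe_finset T).symm
    _ = (Ψ '' (T : Set ((_ : Fin n × Fin n) × (Fin m × Fin m)))).ncard :=
        hinj.ncard_image.symm
    _ ≤ S.ncard := Set.ncard_le_ncard (by
        rintro _ ⟨t, ht, rfl⟩
        exact hmem t ht) (Set.toFinite S)

/-- Zarankiewicz's bound for straight-line drawings of `K_{m,n}` with one class on a line. -/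
theorem collinear_class (m n : ℕ) (x : Fin m → ℝ) (b : Fin n → ℝ × ℝ)
    (hx : Function.Injective x) (hb : ∀ j, (b j).2 ≠ 0)
    (hgen : ∀ i j l, j ≠ l → ¬ Collinear ℝ {((x i, 0) : ℝ × ℝ), b j, b l}) :
    (m / 2) * ((m - 1) / 2) * ((n / 2) * ((n - 1) / 2)) ≤
      Set.ncard {q : (Fin m × Fin n) × (Fin m × Fin n) |
        q.1.1 < q.2.1 ∧ q.1.2 ≠ q.2.2 ∧
          (openSegment ℝ ((x q.1.1, 0) : ℝ × ℝ) (b q.1.2) ∩
            openSegment ℝ ((x q.2.1, 0) : ℝ × ℝ) (b q.2.2)).Nonempty} :=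
  collinear_core m n x b hx hb (fun i j l hjl _ h0 =>
    hgen i j l hjl (collinear_of_orient_eq_zero _ _ _ (hb j) h0))

end Vale.Agent.Lib.P040
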