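import Vale.Agent.Lib.P040.CollinearClass

namespace Vale.Agent.Lib.P040

/-- From crossing pairs to crossing points, when no three edges are concurrent. -/
theorem points_core (m n : ℕ) (x : Fin m → ℝ) (b : Fin n → ℝ × ℝ)
    (hx : Function.Injective x) (hb : ∀ j, (b j).2 ≠ 0)
    (hor : ∀ i j l, j ≠ l → 0 < (b j).2 * (b l).2 → orient (x i) (b j) (b l) ≠ 0)
    (h3 : ∀ (z : ℝ × ℝ) (e f g : Fin m × Fin n), e ≠ f → e ≠ g → f ≠ g →
      z ∈ openSegment ℝ ((x e.1, 0) : ℝ × ℝ) (b e.2) →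
      z ∈ openSegment ℝ ((x f.1, 0) : ℝ × ℝ) (b f.2) →
      z ∉ openSegment ℝ ((x g.1, 0) : ℝ × ℝ) (b g.2)) :
    (((m / 2) * ((m - 1) / 2) * ((n / 2) * ((n - 1) / 2)) : ℕ) : ℕ∞) ≤
      Set.encard {z : ℝ × ℝ | ∃ e f : Fin m × Fin n, e ≠ f ∧
        z ∈ openSegment ℝ ((x e.1, 0) : ℝ × ℝ) (b e.2) ∧
        z ∈ openSegment ℝ ((x f.1, 0) : ℝ × ℝ) (b f.2)} := by
  classical
  set S : Set ((Fin m × Fin n) × (Fin m × Fin n)) := {q |
        q.1.1 < q.2.1 ∧ q.1.2 ≠ q.2.2 ∧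
          (openSegment ℝ ((x q.1.1, 0) : ℝ × ℝ) (b q.1.2) ∩
            openSegment ℝ ((x q.2.1, 0) : ℝ × ℝ) (b q.2.2)).Nonempty} with hS
  have hcard := collinear_core m n x b hx hb hor
  rw [← hS] at hcard
  let φ : (Fin m × Fin n) × (Fin m × Fin n) → ℝ × ℝ := fun q =>
    if h : (openSegment ℝ ((x q.1.1, 0) : ℝ × ℝ) (b q.1.2) ∩
            openSegment ℝ ((x q.2.1, 0) : ℝ × ℝ) (b q.2.2)).Nonempty then h.some else 0
  have hφ : ∀ q ∈ S, φ q ∈ openSegment ℝ ((x q.1.1, 0) : ℝ × ℝ) (b q.1.2) ∩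
      openSegment ℝ ((x q.2.1, 0) : ℝ × ℝ) (b q.2.2) := by
    intro q hq
    have h : (openSegment ℝ ((x q.1.1, 0) : ℝ × ℝ) (b q.1.2) ∩
            openSegment ℝ ((x q.2.1, 0) : ℝ × ℝ) (b q.2.2)).Nonempty := hq.2.2
    have : φ q = h.some := dif_pos h
    rw [this]
    exact h.some_mem
  have hne : ∀ q ∈ S, q.1 ≠ q.2 := by
    intro q hq h
    have := hq.1
    rw [h] at this
    exact lt_irrefl _ this
  have hinj : Set.InjOn φ S := by
    intro q hq q' hq' heq
    by_contra hqq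
    have h1 := hφ q hq
    have h2 := hφ q' hq'
    rw [← heq] at h2
    by_cases ha : q'.1 = q.1 ∨ q'.1 = q.2
    · by_cases hb' : q'.2 = q.1 ∨ q'.2 = q.2
      · rcases ha with ha | ha <;> rcases hb' with hb' | hb'
        · exact hne q' hq' (ha.trans hb'.symm)
        · exact hqq (Prod.ext ha.symm hb'.symm)
        · have l1 := hq.1
          have l2 := hq'.1
          rw [ha, hb'] at l2
          exact lt_asymm l1 l2
        · exact hne q' hq' (ha.trans hb'.symm)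
      · push Not at hb'
        exact h3 (φ q) q.1 q.2 q'.2 (hne q hq) (Ne.symm hb'.1) (Ne.symm hb'.2) h1.1 h1.2 h2.2
    · push Not at ha
      exact h3 (φ q) q.1 q.2 q'.1 (hne q hq) (Ne.symm ha.1) (Ne.symm ha.2) h1.1 h1.2 h2.1
  have hsub : φ '' S ⊆ {z : ℝ × ℝ | ∃ e f : Fin m × Fin n, e ≠ f ∧
        z ∈ openSegment ℝ ((x e.1, 0) : ℝ × ℝ) (b e.2) ∧
        z ∈ openSegment ℝ ((x f.1, 0) : ℝ × ℝ) (b f.2)} := by
    rintro _ ⟨q, hq, rfl⟩
    exact ⟨q.1, q.2, hne q hq, (hφ q hq).1, (hφ q hq).2⟩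
  calc (((m / 2) * ((m - 1) / 2) * ((n / 2) * ((n - 1) / 2)) : ℕ) : ℕ∞)
      ≤ (S.ncard : ℕ∞) := by exact_mod_cast hcard
    _ = S.encard := (Set.toFinite S).cast_ncard_eq
    _ = (φ '' S).encard := hinj.encard_image.symm
    _ ≤ _ := Set.encard_le_encard hsub

/-- If two distinct apexes on the same side of the axis are collinear with a base point, one of
them lies in the interior of the edge from the base point to the other. -/
theorem mem_openSegment_of_orient_eq_zero (x : ℝ) (u v : ℝ × ℝ) (huv : u ≠ v)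
    (hq : 0 < u.2 * v.2) (h : orient x u v = 0) :
    v ∈ openSegment ℝ ((x, 0) : ℝ × ℝ) u ∨ u ∈ openSegment ℝ ((x, 0) : ℝ × ℝ) v := by
  obtain ⟨p, q⟩ := u
  obtain ⟨p', q'⟩ := v
  simp only [orient] at h
  simp only at hq
  have hq0 : q ≠ 0 := fun h0 => by rw [h0] at hq; simp at hq
  have hq0' : q' ≠ 0 := fun h0 => by rw [h0] at hq; simp at hq
  have hr : 0 < q' / q := by
    rcases pos_and_pos_or_neg_and_neg_of_mul_pos hq with ⟨h1, h2⟩ | ⟨h1, h2⟩
    · exact div_pos h2 h1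
    · exact div_pos_of_neg_of_neg h2 h1
  have hr' : 0 < q / q' := by
    rcases pos_and_pos_or_neg_and_neg_of_mul_pos hq with ⟨h1, h2⟩ | ⟨h1, h2⟩
    · exact div_pos h1 h2
    · exact div_pos_of_neg_of_neg h1 h2
  have hne : q' / q ≠ 1 := by
    intro h1
    have hqq : q' = q := by
      field_simp at h1
      exact h1
    subst hqq
    have hpp : p = p' := by
      have : (p - p') * q' = 0 := by linarith
      rcases mul_eq_zero.mp this with h2 | h2
      · linarith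
      · exact absurd h2 hq0'
    exact huv (by rw [hpp])
  rcases lt_or_gt_of_ne hne with hlt | hgt
  · left
    refine ⟨1 - q' / q, q' / q, by linarith, hr, by ring, ?_⟩
    ext
    · simp only [Prod.fst_add, Prod.smul_fst, smul_eq_mul]
      field_simp
      linarith
    · simp only [Prod.snd_add, Prod.smul_snd, smul_eq_mul]
      field_simp
      ring
  · right
    have hlt' : q / q' < 1 := by
      have : q / q' = (q' / q)⁻¹ := by rw [inv_div]
      rw [this]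
      exact inv_lt_one_of_one_lt₀ hgt
    refine ⟨1 - q / q', q / q', by linarith, hr', by ring, ?_⟩
    ext
    · simp only [Prod.fst_add, Prod.smul_fst, smul_eq_mul]
      field_simp
      linarith
    · simp only [Prod.snd_add, Prod.smul_snd, smul_eq_mul]
      field_simp
      ring

theorem axis_between (a c p : ℝ) (h : (a < c ∧ c < p) ∨ (p < c ∧ c < a)) :
    ((c, 0) : ℝ × ℝ) ∈ openSegment ℝ ((a, 0) : ℝ × ℝ) ((p, 0) : ℝ × ℝ) := by
  have hne : p - a ≠ 0 := by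
    rcases h with ⟨h1, h2⟩ | ⟨h1, h2⟩
    · exact (by linarith : 0 < p - a).ne'
    · exact (by linarith : p - a < 0).ne
  have h1 : 0 < (c - a) / (p - a) := by
    rcases h with ⟨h1, h2⟩ | ⟨h1, h2⟩
    · exact div_pos (by linarith) (by linarith)
    · exact div_pos_of_neg_of_neg (by linarith) (by linarith)
  have h2 : 0 < (p - c) / (p - a) := by
    rcases h with ⟨h1, h2⟩ | ⟨h1, h2⟩
    · exact div_pos (by linarith) (by linarith)
    · exact div_pos_of_neg_of_neg (by linarith) (by linarith)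
  refine ⟨(p - c) / (p - a), (c - a) / (p - a), h2, h1, ?_, ?_⟩
  · rw [← add_div]
    have : p - c + (c - a) = p - a := by ring
    rw [this, div_self hne]
  · ext
    · simp only [Prod.fst_add, Prod.smul_fst, smul_eq_mul]
      field_simp
      ring
    · simp

/-- In a straight-line drawing with at least three vertices of the first class on the axis,
no vertex of the second class lies on the axis. -/
theorem off_axis (m : ℕ) (hm : 3 ≤ m) (x : Fin m → ℝ) (hx : Function.Injective x) (w : ℝ × ℝ)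
    (hab : ∀ i, w ≠ (x i, 0))
    (hEA : ∀ i k, ((x k, 0) : ℝ × ℝ) ∉ openSegment ℝ ((x i, 0) : ℝ × ℝ) w) :
    w.2 ≠ 0 := by
  intro h0
  obtain ⟨p, q⟩ := w
  simp only at h0
  subst h0
  have hne : ∀ i, x i ≠ p := fun i h => hab i (by rw [h])
  have key : ∀ i k, i ≠ k → ¬ ((x i < p ∧ x k < p) ∨ (p < x i ∧ p < x k)) := by
    intro i k hik hside
    have hxik : x i ≠ x k := fun h => hik (hx h)
    rcases hside with ⟨h1, h2⟩ | ⟨h1, h2⟩
    · rcases lt_or_gt_of_ne hxik with h3 | h3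
      · exact hEA i k (axis_between _ _ _ (Or.inl ⟨h3, h2⟩))
      · exact hEA k i (axis_between _ _ _ (Or.inl ⟨h3, h1⟩))
    · rcases lt_or_gt_of_ne hxik with h3 | h3
      · exact hEA k i (axis_between _ _ _ (Or.inr ⟨h1, h3⟩))
      · exact hEA i k (axis_between _ _ _ (Or.inr ⟨h2, h3⟩))
  have h01 : (⟨0, by omega⟩ : Fin m) ≠ ⟨1, by omega⟩ := by simp [Fin.ext_iff]
  have h02 : (⟨0, by omega⟩ : Fin m) ≠ ⟨2, by omega⟩ := by simp [Fin.ext_iff]
  have h12 : (⟨1, by omega⟩ : Fin m) ≠ ⟨2, by omega⟩ := by simp [Fin.ext_iff]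
  have k01 := key _ _ h01
  have k02 := key _ _ h02
  have k12 := key _ _ h12
  rcases lt_or_gt_of_ne (hne ⟨0, by omega⟩) with a0 | a0 <;>
  rcases lt_or_gt_of_ne (hne ⟨1, by omega⟩) with a1 | a1 <;>
  rcases lt_or_gt_of_ne (hne ⟨2, by omega⟩) with a2 | a2
  · exact k01 (Or.inl ⟨a0, a1⟩)
  · exact k01 (Or.inl ⟨a0, a1⟩)
  · exact k02 (Or.inl ⟨a0, a2⟩)
  · exact k12 (Or.inr ⟨a1, a2⟩)
  · exact k12 (Or.inl ⟨a1, a2⟩)
  · exact k02 (Or.inr ⟨a0, a2⟩)
  · exact k01 (Or.inr ⟨a0, a1⟩)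
  · exact k01 (Or.inr ⟨a0, a1⟩)

/-- Zarankiewicz's bound on the number of crossing points of every straight-line drawing of
`K_{m,n}` whose first class lies on the horizontal axis. -/
theorem drawing_points (m n : ℕ) (x : Fin m → ℝ) (b : Fin n → ℝ × ℝ)
    (hx : Function.Injective x) (hbinj : Function.Injective b)
    (hab : ∀ i j, b j ≠ (x i, 0))
    (hEA : ∀ i k j, ((x k, 0) : ℝ × ℝ) ∉ openSegment ℝ ((x i, 0) : ℝ × ℝ) (b j))
    (hEB : ∀ i j l, b l ∉ openSegment ℝ ((x i, 0) : ℝ × ℝ) (b j))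
    (h3 : ∀ (z : ℝ × ℝ) (e f g : Fin m × Fin n), e ≠ f → e ≠ g → f ≠ g →
      z ∈ openSegment ℝ ((x e.1, 0) : ℝ × ℝ) (b e.2) →
      z ∈ openSegment ℝ ((x f.1, 0) : ℝ × ℝ) (b f.2) →
      z ∉ openSegment ℝ ((x g.1, 0) : ℝ × ℝ) (b g.2)) :
    (((m / 2) * ((m - 1) / 2) * ((n / 2) * ((n - 1) / 2)) : ℕ) : ℕ∞) ≤
      Set.encard {z : ℝ × ℝ | ∃ e f : Fin m × Fin n, e ≠ f ∧
        z ∈ openSegment ℝ ((x e.1, 0) : ℝ × ℝ) (b e.2) ∧
        z ∈ openSegment ℝ ((x f.1, 0) : ℝ × ℝ) (b f.2)} := by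
  rcases Nat.lt_or_ge m 3 with hm | hm
  · have h0 : (m / 2) * ((m - 1) / 2) = 0 := by
      interval_cases m <;> simp
    rw [h0]
    simp
  · have hb : ∀ j, (b j).2 ≠ 0 := fun j =>
      off_axis m hm x hx (b j) (fun i => hab i j) (fun i k => hEA i k j)
    refine points_core m n x b hx hb ?_ h3
    intro i j l hjl hq h0
    rcases mem_openSegment_of_orient_eq_zero (x i) (b j) (b l) (fun h => hjl (hbinj h)) hq h0
      with h | h
    · exact hEB i j l h
    · exact hEB i l j h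

end Vale.Agent.Lib.P040
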