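import Mathlib

namespace Vale.Agent.Lib.P040

/-- The orientation determinant of the triple `(x, 0)`, `u`, `v`. -/
def orient (x : ℝ) (u v : ℝ × ℝ) : ℝ := (u.1 - x) * v.2 - (v.1 - x) * u.2

theorem orient_swap (x : ℝ) (u v : ℝ × ℝ) : orient x v u = - orient x u v := by
  unfold orient; ring

/-- Two segments from the horizontal axis to two points on the same side of it cross as soon
as both base points see the two apexes with the same orientation of the appropriate sign. -/
theorem cross_aux (xi xk : ℝ) (u v : ℝ × ℝ) (hx : xi < xk)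
    (h : (0 < u.2 ∧ 0 < v.2 ∧ 0 < orient xi u v ∧ 0 < orient xk u v) ∨
      (u.2 < 0 ∧ v.2 < 0 ∧ orient xi u v < 0 ∧ orient xk u v < 0)) :
    (openSegment ℝ ((xi, 0) : ℝ × ℝ) u ∩ openSegment ℝ ((xk, 0) : ℝ × ℝ) v).Nonempty := by
  obtain ⟨p, q⟩ := u
  obtain ⟨p', q'⟩ := v
  simp only [orient] at h
  have hd : 0 < xk - xi := sub_pos.mpr hx
  -- common denominator
  have hden : q' * (xk - xi) + ((p - xk) * q' - (p' - xk) * q) =
      q * (xk - xi) + ((p - xi) * q' - (p' - xi) * q) := by ring
  set D := q' * (xk - xi) + ((p - xk) * q' - (p' - xk) * q) with hD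
  have hDne : D ≠ 0 := by
    rcases h with ⟨h1, h2, h3, h4⟩ | ⟨h1, h2, h3, h4⟩
    · have : 0 < D := by
        have := mul_pos h2 hd
        rw [hD]; linarith
      exact this.ne'
    · have : D < 0 := by
        have := mul_neg_of_neg_of_pos h2 hd
        rw [hD]; linarith
      exact this.ne
  have hs0 : 0 < q' * (xk - xi) / D := by
    rcases h with ⟨h1, h2, h3, h4⟩ | ⟨h1, h2, h3, h4⟩
    · have := mul_pos h2 hd
      apply div_pos this
      rw [hD]; linarith
    · have := mul_neg_of_neg_of_pos h2 hd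
      apply div_pos_of_neg_of_neg this
      rw [hD]; linarith
  have hs1 : 0 < ((p - xk) * q' - (p' - xk) * q) / D := by
    rcases h with ⟨h1, h2, h3, h4⟩ | ⟨h1, h2, h3, h4⟩
    · have := mul_pos h2 hd
      apply div_pos h4
      rw [hD]; linarith
    · have := mul_neg_of_neg_of_pos h2 hd
      apply div_pos_of_neg_of_neg h4
      rw [hD]; linarith
  have ht0 : 0 < q * (xk - xi) / D := by
    rcases h with ⟨h1, h2, h3, h4⟩ | ⟨h1, h2, h3, h4⟩
    · have := mul_pos h1 hd
      apply div_pos this
      rw [hden]; linarith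
    · have := mul_neg_of_neg_of_pos h1 hd
      apply div_pos_of_neg_of_neg this
      rw [hden]; linarith
  have ht1 : 0 < ((p - xi) * q' - (p' - xi) * q) / D := by
    rcases h with ⟨h1, h2, h3, h4⟩ | ⟨h1, h2, h3, h4⟩
    · have := mul_pos h1 hd
      apply div_pos h3
      rw [hden]; linarith
    · have := mul_neg_of_neg_of_pos h1 hd
      apply div_pos_of_neg_of_neg h3
      rw [hden]; linarith
  refine ⟨(((p - xk) * q' - (p' - xk) * q) / D) • ((xi, 0) : ℝ × ℝ) +
      (q' * (xk - xi) / D) • ((p, q) : ℝ × ℝ), ?_, ?_⟩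
  · refine ⟨_, _, hs1, hs0, ?_, rfl⟩
    rw [← add_div, add_comm, div_self hDne]
  · refine ⟨((p - xi) * q' - (p' - xi) * q) / D, q * (xk - xi) / D, ht1, ht0, ?_, ?_⟩
    · rw [← add_div, add_comm, ← hden, div_self hDne]
    · ext
      · simp only [Prod.fst_add, Prod.smul_fst, smul_eq_mul]
        field_simp
        ring
      · simp only [Prod.snd_add, Prod.smul_snd, smul_eq_mul]
        field_simp
        ring

end Vale.Agent.Lib.P040
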